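import Crest.Agent.X262.Irr93.Dol
import Crest.Agent.X262.Lat.NDefs
import Crest.Agent.X262.Q74.Hol

/-!
# X262 / Irr93 (helper93), file Bet: Betti numbers and Hodge numbers, the irregularity

* `bet_eq`   : `b_k = ∑_{p+q=k} h^{p,q}`; `bet_dual` : `b_{2n-k} = b_k`;
* `irrStmt`  : `Lat.IrrStmt`.
-/

set_option autoImplicit false
set_option linter.unusedSectionVars false

open Module

namespace Crest.Agent.X262.Irr93

open Crest.Agent.R275.Geo Crest.Agent.X262.Kah Crest.Agent.X262.Kah.Fib Crest.Agent.X262.Lat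
open Crest.Agent.R208.F Crest.Agent.R208.CW

noncomputable section

variable {n : ℕ} {M : Type} [TopologicalSpace M] {A : Atl n M}

/-- the embedding of pairs of natural numbers -/
def cast2 : ℕ × ℕ ↪ ℤ × ℤ := ⟨fun x => (x.1, x.2), fun x y h => by
  simp only [Prod.mk.injEq, Nat.cast_inj] at h
  exact Prod.ext h.1 h.2⟩

theorem mem_Dg_iff' {k : ℕ} {c : Fb n} : c ∈ Frm.Dg (Cn n) k ↔
    ∑ x ∈ Finset.HasAntidiagonal.antidiagonal k, pr x.1 x.2 c = c := by
  rw [Frm.mem_Dg_iff, Frm.dg_eq_sum (Frm.P10 (Frm.Jc (Cn n)))]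
  simp only [prj_Jc]

variable [T2Space M] [Finite A.ι] [CompactSpace M] (K : KF A) (P : Part A)

theorem mem_Zk_iff {k : ℕ} (a : FS A) : a ∈ Zk A k ↔ (K.kp P).d a = 0 ∧
    ∑ x ∈ (Finset.HasAntidiagonal.antidiagonal k).map cast2, (K.kp P).pr x.1 x.2 a = a := by
  have key : ∀ i z, (∑ x ∈ (Finset.HasAntidiagonal.antidiagonal k).map cast2,
      (K.kp P).pr x.1 x.2 a).1 i z =
      ∑ x ∈ Finset.HasAntidiagonal.antidiagonal k, pr x.1 x.2 (a.1 i z) := fun i z => by
    rw [Finset.sum_map, FS.sum_apply]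
    exact Finset.sum_congr rfl fun x _ => LinearMap.congr_fun (prZ_nat x.1 x.2) _
  rw [mem_Zk, K.kp_d]
  refine and_congr_right fun _ => ⟨fun h => FS.ext' fun i z _ => ?_, fun h i z => ?_⟩
  · rw [key]; exact mem_Dg_iff'.1 (h i z)
  · rw [mem_Dg_iff', ← key, h]

/-- **Hodge decomposition**, numerically -/
theorem bet_eq (k : ℕ) :
    bet A k = ∑ x ∈ Finset.HasAntidiagonal.antidiagonal k, (K.kp P).hpq x.1 x.2 := by
  have h := (K.kp P).qrk_dR _ (B := LinearMap.range (dF A)) (mem_Zk_iff K P (k := k))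
    fun a _ => by rw [← K.kp_d' P]; rfl
  rw [Finset.sum_map] at h
  exact h

theorem bet_eq_box (k : ℕ) :
    bet A k = ∑ x ∈ (box n).filter (fun x : ℤ × ℤ => x.1 + x.2 = (k : ℤ)), (K.kp P).hpq x.1 x.2 := by
  refine (bet_eq K P k).trans ((Finset.sum_map _ cast2
    fun x => (K.kp P).hpq x.1 x.2).symm.trans ?_)
  refine (Finset.sum_subset (fun x hx => ?_) fun x hx hn => ?_).symm
  · obtain ⟨p, q⟩ := x
    rw [Finset.mem_filter, mem_box] at hx
    refine Finset.mem_map.2 ⟨(p.toNat, q.toNat), ?_, ?_⟩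
    · rw [Finset.HasAntidiagonal.mem_antidiagonal]; omega
    · show ((p.toNat : ℤ), (q.toNat : ℤ)) = (p, q)
      rw [Prod.mk.injEq]; omega
  · obtain ⟨y, hy, rfl⟩ := Finset.mem_map.1 hx
    refine (K.kp P).hpq_out fun hb => hn (Finset.mem_filter.2 ⟨hb, ?_⟩)
    have := Finset.HasAntidiagonal.mem_antidiagonal.1 hy
    show (y.1 : ℤ) + y.2 = k
    omega

include K P in
/-- **Poincaré duality**, numerically -/
theorem bet_dual {k l : ℕ} (h : k + l = 2 * n) : bet A k = bet A l := by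
  rw [bet_eq_box K P, bet_eq_box K P]
  refine Finset.sum_nbij' (fun x => (n - x.1, n - x.2)) (fun x => (n - x.1, n - x.2))
    (fun x hx => ?_) (fun x hx => ?_) (fun x _ => by simp) (fun x _ => by simp)
    fun x _ => ((K.kp P).hpq_dual _ _).symm
  all_goals
    obtain ⟨p, q⟩ := x
    rw [Finset.mem_filter, mem_box] at hx ⊢
    omega

include K P in
theorem bet_gt {k : ℕ} (h : 2 * n < k) : bet A k = 0 := by
  rw [bet_eq_box K P]
  refine Finset.sum_eq_zero fun x hx => ?_
  obtain ⟨p, q⟩ := x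
  rw [Finset.mem_filter, mem_box] at hx
  omega

theorem bet_one : bet A 1 = 2 * (K.kp P).hpq 1 0 := by
  rw [bet_eq K P, Finset.Nat.antidiagonal_succ, Finset.sum_cons]
  simp only [Finset.Nat.antidiagonal_zero, Finset.map_singleton, Finset.sum_singleton]
  have := (K.kp P).hpq_symm 1 0
  simp only [Function.Embedding.coe_prodMap, Prod.map, Function.Embedding.coeFn_mk,
    Function.Embedding.refl_apply, Nat.succ_eq_add_one, zero_add, Nat.cast_zero, Nat.cast_one]
  omega

omit [T2Space M] [Finite A.ι] [CompactSpace M] in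
theorem fderiv_au {om : Cn n → Fb n} {z : Cn n} (h : CD 1 om z) (v : Cn n) :
    fderiv ℝ (fun y => au (om y)) z v = au (ic v (dC om z)) := by
  rw [fderiv_fun au v h, pdC_vec v h, dC_eq h]
  simp only [dlC, dbC, dz, dzb, map_add, map_sum, ic_cv_mul, map_sub, au_cv_mul, sub_zero,
    Finset.sum_add_distrib, zc_apply, zcb_apply]

omit [T2Space M] [Finite A.ι] [CompactSpace M] in
/-- closed functions are constant -/
theorem eq_const [PreconnectedSpace M] {u : FS A} (h0 : TyF 0 0 u) (hd : dF A u = 0) :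
    ∃ c : ℂ, u = c • 1 := by
  choose ci hci using A.cover
  let f : M → ℂ := fun x => au (u.1 (ci x) (A.e (ci x) x))
  have hf : ∀ i, ∀ x ∈ (A.e i).source, f x = au (u.1 i (A.e i x)) := fun i x hx => by
    rw [u.tr' (Kah.mem_ov ⟨hx, hci x⟩), tr_e hx, Ty.eq_au (h0 _ _ ((A.e _).map_source (hci x))),
      pbC_smul, map_one, map_smul, au_one, smul_eq_mul, mul_one]
  have hl : IsLocallyConstant f := by
    rw [IsLocallyConstant.iff_eventually_eq]
    intro x
    obtain ⟨r, hr, hb⟩ := Metric.isOpen_iff.1 (A.e (ci x)).open_target _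
      ((A.e _).map_source (hci x))
    filter_upwards [(A.e (ci x)).open_source.mem_nhds (hci x),
      ((A.e (ci x)).continuousAt (hci x)).eventually (Metric.ball_mem_nhds _ hr)] with y hy hy'
    rw [hf _ y hy]
    refine Metric.isOpen_ball.is_const_of_fderiv_eq_zero (𝕜 := ℝ)
      (f := fun z => au (u.1 (ci x) z)) (convex_ball _ _).isPreconnected
      (fun z hz => ((CD_fun au (u.sm1 (hb hz))).differentiableAt
        one_ne_zero).differentiableWithinAt) (fun z hz => ?_) hy' (Metric.mem_ball_self hr)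
    ext v
    rw [fderiv_au (u.sm1 (hb hz)), ← dF_apply _ (hb hz), hd]
    simp
  obtain ⟨c, hc⟩ := hl.exists_eq_const
  refine ⟨c, FS.ext' fun i z hz => ?_⟩
  have := hf i _ ((A.e i).map_target hz)
  rw [(A.e i).right_inv hz, hc] at this
  rw [FS.smul_apply, FS.one_apply hz, Ty.eq_au (h0 i z hz), ← this]
  rfl

include K P in
theorem bet_zero [ConnectedSpace M] : bet A 0 = 1 := by
  have h1 : (1 : FS A) ≠ 0 := fun h => by
    obtain ⟨x⟩ := (inferInstance : Nonempty M)
    obtain ⟨i, hi⟩ := A.cover x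
    have := FS.one_apply ((A.e i).map_source hi)
    rw [h] at this
    exact zero_ne_one ((congrArg au this).trans au_one |>.symm.trans (map_zero au)).symm
  have hd : dF A (1 : FS A) = 0 := by
    have := dF_mul (1 : FS A) 1
    rw [mul_one, mul_one, show invF A 1 = 1 from FS.ext' fun i z hz => by
      rw [invF_apply, FS.one_apply hz, map_one], one_mul] at this
    exact left_eq_add.1 this
  have h2 := (K.kp P).finrank_hol 0 (Z := Submodule.span ℂ {(1 : FS A)}) fun a => by
    rw [Submodule.mem_span_singleton]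
    constructor
    · rintro ⟨c, rfl⟩
      have : (K.kp P).PC 0 0 (c • 1) := KA.PC.smul c ⟨K.kp_ty_one P, (K.kp_d P _).trans hd⟩
      exact ⟨this.ty, this.db⟩
    · rintro ⟨h3, h4⟩
      obtain ⟨c, hc⟩ := eq_const ((K.kp_Ty P (p := 0) (q := 0)).1 h3)
        ((K.kp_d P _).symm.trans ((K.kp P).hol_closed h3 h4).cl)
      exact ⟨c, hc.symm⟩
  rw [finrank_span_singleton h1] at h2
  rw [bet_eq K P, Finset.Nat.antidiagonal_zero, Finset.sum_singleton]
  exact h2.symm

/-- holomorphic forms -/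
def Hol (A : Atl n M) (p : ℕ) : Submodule ℂ (FS A) :=
  LinearMap.ker (EF.op A (prF A p (0 : ℕ)) - 1) ⊓ LinearMap.ker (dbF A)

omit [T2Space M] [Finite A.ι] [CompactSpace M] in
theorem mem_Hol {p : ℕ} {u : FS A} : u ∈ Hol A p ↔ TyF p 0 u ∧ dbF A u = 0 := by
  rw [Hol, Submodule.mem_inf, LinearMap.mem_ker, LinearMap.mem_ker, LinearMap.sub_apply,
    sub_eq_zero]
  exact and_congr_left fun _ => prF_eq_iff

theorem finrank_Hol (p : ℕ) : finrank ℂ (Hol A p) = (K.kp P).hpq p 0 :=
  (K.kp P).finrank_hol p fun _ => mem_Hol.trans (and_congr_left fun _ => (K.kp_Ty P (q := 0)).symm)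

open Crest.Agent.X277.Lef Crest.Agent.X277.AN.G1 in
/-- **the irregularity** -/
theorem irrStmt : IrrStmt := by
  intro F _ _ P b X
  let K : KF X.A := KF.ofKah (Crest.Agent.R273.FS_333.fsKah X.Pr)
  have h : (K.kp X.PA).hpq 1 0 = finrank ℂ (Coh.sv P).R1 :=
    (finrank_Hol K X.PA 1).symm.trans (Q74.finrank_eq b _ fun _ => mem_Hol)
  rw [bet_one K X.PA, hq_one K X.PA, (K.kp X.PA).hpq_symm 1 0, h]
  exact ⟨rfl, rfl⟩

end

end Crest.Agent.X262.Irr93
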