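import Crest.Agent.X262.Irr93.Hpq
import Crest.Agent.X262.Kah.BunE
import Crest.Agent.R275.ChiM_825

/-!
# X262 / Irr93 (helper93), file Dol: `h¹(O) = h^{0,1}` on a compact Kaehler surface

* `ph0`, `ph1` : functions and `(0,1)`-forms in coordinates as elements of `FS A`;
* `hq_one` : `hq 1 1 = hpq 0 1`.
-/

set_option autoImplicit false
set_option linter.unusedSectionVars false
set_option linter.unusedVariables false

open Set Filter Topology Complex Module
open scoped ContDiff ComplexConjugate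

namespace Crest.Agent.X262.Irr93

open Crest.Agent.R208.F Crest.Agent.R208.CW Crest.Agent.R275.Geo Crest.Agent.X262.Kah
  Crest.Agent.X262.Kah.Fib Crest.Agent.R275 Crest.Agent.R275.Fm96 Crest.Agent.R275.Q74
  Crest.Agent.R275.Core144

noncomputable section

theorem qrk_map {V S : Type*} [AddCommGroup V] [Module ℂ V] [AddCommGroup S] [Module ℂ S]
    {f : V →ₗ[ℂ] S} (hf : Function.Injective f) (Z B : Submodule ℂ V) :
    qrk (Z.map f) (B.map f) = qrk Z B := by
  refine (Submodule.Quotient.equiv _ _ (Submodule.equivMapOfInjective f hf Z) ?_).finrank_eq.symm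
  ext y
  obtain ⟨x, rfl⟩ := (Submodule.equivMapOfInjective f hf Z).surjective y
  rw [Submodule.mem_map_equiv, LinearEquiv.symm_apply_apply]
  exact ⟨fun h => ⟨x.1, h, rfl⟩, fun ⟨b, hb, h⟩ => by
    have : b = x.1 := hf h
    show x.1 ∈ B
    exact this ▸ hb⟩

section fib

variable {n : ℕ}

/-- the coefficient of `dz̄_b` -/
def cb (b : Fin n) : Fb n →ₗ[ℂ] ℂ := au ∘ₗ izb b

theorem cb_dzb (b c : Fin n) : cb b (dzb c) = if b = c then 1 else 0 := by
  have h : izb b (dzb c) = if b = c then 1 else 0 := by simpa using ct_th (.inr b) (.inr c)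
  rw [cb, LinearMap.comp_apply, h]
  split_ifs
  · exact au_one
  · exact map_zero _

theorem cb_sum (v : Fin n → ℂ) (b : Fin n) : cb b (∑ c, v c • dzb c) = v b := by
  simp [cb_dzb]

theorem eq_sum_cb {x : Fb n} (hx : x ∈ Ty 0 1) : ∑ b, cb b x • dzb b = x := by
  have h := hx.2
  rw [Nat.cast_one, one_smul, Nzb_apply] at h
  conv_rhs => rw [← h]
  refine Finset.sum_congr rfl fun b _ => ?_
  rw [Ty.eq_au (Ty.izb_mem b hx), mul_smul_comm, mul_one]
  rfl

theorem pbC_sum_dzb {L : Cn n →ₗ[ℝ] Cn n} (hL : ∀ v, L (I • v) = I • L v) (v : Fin n → ℂ) :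
    pbC L (∑ c, v c • dzb c) = ∑ b, (∑ c, conj (L (ep b) c) * v c) • dzb b := by
  simp only [map_sum, pbC_smul, pbC_dzb hL, Finset.smul_sum, smul_smul, Finset.sum_smul]
  rw [Finset.sum_comm]
  simp only [mul_comm]

theorem dzb_mul_ne : (dzb 0 * dzb 1 : Fb 2) ≠ 0 := fun h => by
  have h1 := ct_th_mul (n := 2) (.inr 0) (.inr 0) (dzb 1)
  have h2 : izb 0 (dzb (1 : Fin 2)) = 0 := by simpa using ct_th (n := 2) (.inr 0) (.inr 1)
  simp only [ct_inr, th_inr, if_true, h2, mul_zero, sub_zero, h, map_zero] at h1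
  have := cb_dzb (1 : Fin 2) 1
  rw [← h1, map_zero, if_pos rfl] at this
  exact zero_ne_one this

end fib

variable {M : Type} [TopologicalSpace M] {A : Atl 2 M}

theorem sm_of {i : A.ι} {f : M → ℂ} (h : ∀ x ∈ (A.e i).source, x ∈ univ → SmP A i f x)
    {z : Cn 2} (hz : z ∈ (A.e i).target) : ContDiffAt ℝ ∞ (fun z => f ((A.e i).symm z)) z := by
  have := (h _ ((A.e i).map_target hz) trivial).self
  rwa [(A.e i).right_inv hz] at this

open Classical in
/-- a coefficient of a form -/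
def coef (t : Fb 2 →ₗ[ℂ] ℂ) (y : FS A) (i : A.ι) (x : M) : ℂ :=
  if x ∈ (A.e i).source then t (y.1 i (A.e i x)) else 0

theorem coef_symm (t : Fb 2 →ₗ[ℂ] ℂ) (y : FS A) {i : A.ι} {z : Cn 2} (hz : z ∈ (A.e i).target) :
    coef t y i ((A.e i).symm z) = t (y.1 i z) := by
  rw [coef, if_pos ((A.e i).map_target hz), (A.e i).right_inv hz]

theorem coef_sm (t : Fb 2 →ₗ[ℂ] ℂ) (y : FS A) {i : A.ι} {x : M} (hx : x ∈ (A.e i).source) :
    SmP A i (coef t y i) x := by
  filter_upwards [(A.e i).open_target.mem_nhds ((A.e i).map_source hx)] with z hz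
  refine (CD_fun t (y.sm hz)).congr_of_eventuallyEq ?_
  filter_upwards [(A.e i).open_target.mem_nhds hz] with w hw using coef_symm t y hw

theorem symm_mem {i j : A.ι} {z : Cn 2} (hz : z ∈ A.ov i j) :
    (A.e i).symm z ∈ (A.e i).source ∩ (A.e j).source := ⟨(A.e i).map_target hz.1, hz.2⟩

/-- a function as a form -/
def ph0f (u : ZZ0 A (1 : LB A).g) : FS A :=
  FS.mk' (fun i z => u.1 i ((A.e i).symm z) • 1)
    (fun i z hz => CD_fsmul (sm_of (u.2.sm i) hz) (CD.const _)) fun i j z hz => by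
      rw [pbC_smul, map_one, symm_tr hz, u.2.tr i j _ (symm_mem hz) trivial]
      exact congrArg (· • (1 : Fb 2)) (one_mul _)

theorem ph0f_apply (u : ZZ0 A (1 : LB A).g) {i : A.ι} {z : Cn 2} (hz : z ∈ (A.e i).target) :
    (ph0f u).1 i z = u.1 i ((A.e i).symm z) • 1 := FS.mk'_apply hz

/-- a `(0,1)`-form in coordinates as a form -/
def ph1f (u : ZZ1 A (1 : LB A).g) : FS A :=
  FS.mk' (fun i z => ∑ b, u.1 i ((A.e i).symm z) b • dzb b)
    (fun i z hz => CD.sum fun b _ => CD_fsmul (sm_of (u.2.sm i b) hz) (CD.const _))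
    fun i j z hz => by
      rw [pbC_sum_dzb (Dtr_I hz), symm_tr hz]
      refine Finset.sum_congr rfl fun b _ => ?_
      rw [u.2.tr i j _ (symm_mem hz) trivial b]
      simp only [← Dtr_J (symm_mem hz), (A.e i).right_inv hz.1]
      exact congrArg (· • dzb b) (one_mul _)

theorem ph1f_apply (u : ZZ1 A (1 : LB A).g) {i : A.ι} {z : Cn 2} (hz : z ∈ (A.e i).target) :
    (ph1f u).1 i z = ∑ b, u.1 i ((A.e i).symm z) b • dzb b := FS.mk'_apply hz

variable (A) in
/-- the linear map on `(0,1)`-forms -/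
def ph1 : ZZ1 A (1 : LB A).g →ₗ[ℂ] FS A where
  toFun := ph1f
  map_add' u v := FS.ext' fun i z hz => by
    rw [FS.add_apply, ph1f_apply _ hz, ph1f_apply _ hz, ph1f_apply _ hz, ← Finset.sum_add_distrib]
    exact Finset.sum_congr rfl fun b _ => add_smul _ _ _
  map_smul' c u := FS.ext' fun i z hz => by
    rw [RingHom.id_apply, FS.smul_apply, ph1f_apply _ hz, ph1f_apply _ hz, Finset.smul_sum]
    exact Finset.sum_congr rfl fun b _ => mul_smul _ _ _

theorem ph1_inj : Function.Injective (ph1 A) := by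
  rw [injective_iff_map_eq_zero]
  intro u hu
  ext i x b
  by_cases hx : x ∈ (A.e i).source
  · have h := ph1f_apply u ((A.e i).map_source hx)
    rw [(A.e i).left_inv hx, show ph1f u = 0 from hu] at h
    rw [← cb_sum (u.1 i x) b, ← h]
    exact map_zero _
  · exact congrFun (u.2.off i x hx) b

theorem ph1_ty (u : ZZ1 A (1 : LB A).g) : TyF 0 1 (ph1 A u) := fun i z hz => by
  rw [show (ph1 A u).1 i z = _ from ph1f_apply u hz]
  exact Submodule.sum_mem _ fun b _ => Submodule.smul_mem _ _ (dzb_mem b)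

theorem ph0_ty (u : ZZ0 A (1 : LB A).g) : TyF 0 0 (ph0f u) := fun i z hz => by
  rw [ph0f_apply u hz]
  exact Submodule.smul_mem _ _ one_mem_Ty

theorem exists_ph1 {y : FS A} (hy : TyF 0 1 y) : ∃ u, ph1 A u = y := by
  refine ⟨⟨fun i x b => coef (cb b) y i x, fun i b x hx _ => coef_sm _ y hx,
    fun i x hx => funext fun b => if_neg hx, fun i j x hx _ b => ?_⟩, FS.ext' fun i z hz => ?_⟩
  · have hz := Kah.mem_ov hx
    simp only [coef, if_pos hx.1, if_pos hx.2]
    rw [y.tr' hz, tr_e hx.1, ← eq_sum_cb (hy j _ ((A.e j).map_source hx.2)),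
      pbC_sum_dzb (Dtr_I hz), cb_sum]
    simp only [Dtr_J hx, cb_sum]
    exact (one_mul _).symm
  · rw [show (ph1 A _).1 i z = _ from ph1f_apply _ hz]
    simp only [coef_symm _ _ hz]
    exact eq_sum_cb (hy i z hz)

theorem exists_ph0 {y : FS A} (hy : TyF 0 0 y) : ∃ u, ph0f u = y := by
  refine ⟨⟨coef au y, fun i x hx _ => coef_sm _ y hx, fun i x hx => if_neg hx,
    fun i j x hx _ => ?_⟩, FS.ext' fun i z hz => ?_⟩
  · simp only [coef, if_pos hx.1, if_pos hx.2]
    rw [y.tr' (Kah.mem_ov hx), tr_e hx.1, Ty.eq_au (hy j _ ((A.e j).map_source hx.2)), pbC_smul,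
      map_one]
    exact (one_mul _).symm
  · rw [ph0f_apply _ hz]
    simp only [coef_symm _ _ hz]
    exact (Ty.eq_au (hy i z hz)).symm

theorem db_symm (f : M → ℂ) (a : Fin 2) {i : A.ι} {z : Cn 2} (hz : z ∈ (A.e i).target) :
    A.db i a f ((A.e i).symm z) = dbj a (fun y => f ((A.e i).symm y)) z := by
  rw [Atl.db, (A.e i).right_inv hz]

theorem dbF_ph0 (u : ZZ0 A (1 : LB A).g) :
    dbF A (ph0f u) = ph1 A (D0 (ChiM825.isLC 1) u) := FS.ext' fun i z hz => by
  rw [dbF_apply _ hz, show (ph1 A _).1 i z = _ from ph1f_apply _ hz, ph0f,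
    dbC_congr (FS.mk'_ev hz), dbC_fsmul ((sm_of (u.2.sm i) hz).of_le Kah.one_le_inf) (CD.const _),
    dbC_const, smul_zero, add_zero, mul_one]
  refine Finset.sum_congr rfl fun b _ => ?_
  rw [coe_D0, d0_of_mem ((A.e i).map_target hz), db_symm _ _ hz]

theorem dbF_ph1 (u : ZZ1 A (1 : LB A).g) {i : A.ι} {z : Cn 2} (hz : z ∈ (A.e i).target) :
    (dbF A (ph1 A u)).1 i z = d1 A u.1 i ((A.e i).symm z) • (dzb 0 * dzb 1) := by
  have hs := fun b => (sm_of (u.2.sm i b) hz).of_le Kah.one_le_inf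
  rw [dbF_apply _ hz, show (ph1 A u) = ph1f u from rfl, ph1f, dbC_congr (FS.mk'_ev hz),
    dbC_sum _ fun b _ => CD_fsmul (hs b) (CD.const _), d1_of_mem ((A.e i).map_target hz),
    db_symm _ _ hz, db_symm _ _ hz]
  simp only [dbC_fsmul (hs _) (CD.const _), dbC_const, smul_zero, add_zero, Fin.sum_univ_two,
    add_mul, smul_mul_assoc]
  have h0 : ∀ a : Fin 2, dzb a * dzb a = 0 := fun a => th_sq (.inr a)
  rw [h0, h0, dzb_anti 1 0]
  module

theorem dbF_ph1_iff (u : ZZ1 A (1 : LB A).g) :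
    dbF A (ph1 A u) = 0 ↔ D1 (ChiM825.isLC 1) u = 0 := by
  constructor
  · intro h
    ext i x
    by_cases hx : x ∈ (A.e i).source
    · have h1 := dbF_ph1 u ((A.e i).map_source hx)
      rw [h, (A.e i).left_inv hx] at h1
      exact (smul_eq_zero.1 h1.symm).resolve_right dzb_mul_ne
    · exact d1_of_not_mem hx
  · intro h
    refine FS.ext' fun i z hz => ?_
    rw [dbF_ph1 u hz, show d1 A u.1 = 0 from congrArg Subtype.val h]
    exact zero_smul _ _

/-- **`h¹(O) = h^{0,1}`** -/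
theorem hq_one [T2Space M] [Finite A.ι] [CompactSpace M] (K : KF A) (P : Part A) :
    ChiM825.hq 1 (1 : LB A) = (K.kp P).hpq 0 1 := by
  refine (qrk_map ph1_inj _ _).symm.trans ((K.kp P).qrk_dol 0 1 (fun a => ?_) fun a _ => ?_)
  · rw [show (K.kp P).Ty 0 1 a ↔ TyF 0 1 a from K.kp_Ty P (p := 0) (q := 1), K.kp_db]
    constructor
    · rintro ⟨u, hu, rfl⟩
      exact ⟨ph1_ty u, (dbF_ph1_iff u).2 hu⟩
    · rintro ⟨h1, h2⟩
      obtain ⟨u, rfl⟩ := exists_ph1 h1
      exact ⟨u, (dbF_ph1_iff u).1 h2, rfl⟩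
  · rw [bot_sup_eq, K.kp_db]
    constructor
    · rintro ⟨_, ⟨u, rfl⟩, rfl⟩
      exact ⟨ph0f u, (K.kp_Ty P (p := 0) (q := 0)).2 (ph0_ty u), dbF_ph0 u⟩
    · rintro ⟨y, h1, rfl⟩
      obtain ⟨u, rfl⟩ := exists_ph0 ((K.kp_Ty P (p := 0) (q := 0)).1 h1)
      exact ⟨_, ⟨u, rfl⟩, (dbF_ph0 u).symm⟩

end

end Crest.Agent.X262.Irr93
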